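import Vale.Agent.P040Z.Final

namespace Vale.Agent.Results.P040.A_full

open Vale.Agent.P040Z

theorem result (m n : ℕ) :
    (∀ D : Drawing (completeBipartiteGraph (Fin m) (Fin n)), d m * d n ≤ D.crossings) ∧
      ∃ D : Drawing (completeBipartiteGraph (Fin m) (Fin n)),
        D.Proper ∧ D.crossings = d m * d n :=
  final m n

end Vale.Agent.Results.P040.A_full
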