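import Vale.Agent.P040.Fin

open Vale.Agent.P040

theorem Vale.Agent.Results.P040.B_rect.result :
    (∀ (m n : ℕ) (A : Fin m → EuclideanSpace ℝ (Fin 2)) (B : Fin n → EuclideanSpace ℝ (Fin 2)),
      Function.Injective (Sum.elim A B) →
      (∀ i j v, Sum.elim A B v ∉ openSegment ℝ (A i) (B j)) →
      (∀ x (e f g : Fin m × Fin n), x ∈ openSegment ℝ (A e.1) (B e.2) →
        x ∈ openSegment ℝ (A f.1) (B f.2) → x ∈ openSegment ℝ (A g.1) (B g.2) →
        e = f ∨ e = g ∨ f = g) →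
      ((dd m * dd n : ℕ) : ℕ∞) ≤
        (crossPts fun e : Fin m × Fin n => openSegment ℝ (A e.1) (B e.2)).encard) ∧
    (∀ (m n : ℕ) (A : Fin m → EuclideanSpace ℝ (Fin 3)) (B : Fin n → EuclideanSpace ℝ (Fin 3)),
      (∀ v, ‖Sum.elim A B v‖ = 1) →
      (∀ u v w, u ≠ v → u ≠ w → v ≠ w →
        LinearIndependent ℝ ![Sum.elim A B u, Sum.elim A B v, Sum.elim A B w]) →
      (∀ x (e f g : Fin m × Fin n), x ∈ geoArc (A e.1) (B e.2) → x ∈ geoArc (A f.1) (B f.2) →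
        x ∈ geoArc (A g.1) (B g.2) → e = f ∨ e = g ∨ f = g) →
      ((dd m * dd n : ℕ) : ℕ∞) ≤
        (crossPts fun e : Fin m × Fin n => geoArc (A e.1) (B e.2)).encard) :=
  ⟨fun _ _ A B => rect (by simp) A B, fun _ _ A B _ => sph A B⟩
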